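import Vale.Agent.P015.M.AllC

namespace Vale.Agent.Results.P015.AllComponentsFinite

open Vale.Agent.P015

/-- **The Gaussian moat theorem.** For every real `D`, every connected component of the graph
`G_D` on the Gaussian primes is finite; the sizes of the components are even bounded in terms of
`D`; and there is no infinite sequence of distinct Gaussian primes whose successive distances are
at most `D`. -/
theorem result (D : ℝ) :
    (∀ C : (moatGraph D).ConnectedComponent, C.supp.Finite) ∧
    (∃ B : ℕ, ∀ C : (moatGraph D).ConnectedComponent, C.supp.encard ≤ (B : ℕ∞)) ∧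
    (¬ ∃ γ : ℕ → {z : GaussianInt // Prime z}, Function.Injective γ ∧
      ∀ n, dist (GaussianInt.toComplex (γ n)) (GaussianInt.toComplex (γ (n + 1))) ≤ D) ∧
    ∃ k : ℕ, ∀ f : ℕ → GaussianInt, (∀ i ≤ k, ∀ j ≤ k, f i = f j → i = j) →
      (∀ n < k, dist (GaussianInt.toComplex (f n)) (GaussianInt.toComplex (f (n + 1))) ≤ D) →
        ∃ π : GaussianInt, Prime π ∧ ∀ a, ∃ n ≤ k, π ∣ f n - a := by
  obtain ⟨h1, h2, h3, -, h5⟩ := M.moat M.goalC D
  exact ⟨h2, h1, h3, h5⟩

end Vale.Agent.Results.P015.AllComponentsFinite
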